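import Vale.Agent.P154.D3.K0.Main
import Vale.Agent.P154.D3.K1.Main

namespace Vale.Agent.P154.D3

open PolyR Cert

/-- Coefficients of the potentials. -/
noncomputable def cc1 : ℕ → ℝ
  | 0 => (1201 / 1250 : ℝ)
  | 1 => (12431 / 10000 : ℝ)
  | 2 => (22537 / 10000 : ℝ)
  | _ => 0

/-- Coefficients of the potentials. -/
noncomputable def cc2 : ℕ → ℝ
  | 0 => (-5271 / 2000 : ℝ)
  | 1 => (-45661 / 10000 : ℝ)
  | 2 => (-136909 / 10000 : ℝ)
  | _ => 0

/-- Coefficients of the potentials. -/
noncomputable def cc4 : ℕ → ℝ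
  | 0 => (414 / 125 : ℝ)
  | 1 => (19223 / 2500 : ℝ)
  | 2 => (74457 / 2500 : ℝ)
  | _ => 0

/-- Coefficients of the potentials. -/
noncomputable def zz : ℕ → ℝ
  | 0 => (893 / 1000 : ℝ)
  | 1 => (289 / 500 : ℝ)
  | _ => 0

theorem H : ChainHyp 3 (2887 / 5000 : ℝ) cc1 cc2 cc4 zz (969 / 1000000 : ℝ) where
  hd := by norm_num
  hl0 := by norm_num
  hl1 := by norm_num
  hld := by norm_num
  hτ' := by norm_num
  hc01 := by simp only [cc1]; norm_num
  hc04 := by simp only [cc4]; norm_num
  hc0 := by simp only [cc1, cc2, cc4]; norm_num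
  hcd1 := by simp only [cc1, show 3 - 1 = 2 from rfl]; norm_num
  hcd4 := by simp only [cc4, show 3 - 1 = 2 from rfl]; norm_num
  hcd := by simp only [cc1, cc2, cc4, show 3 - 1 = 2 from rfl]; norm_num
  hζ0 := by
    intro k hk
    have hk' : k < 2 := by omega
    interval_cases k <;> simp only [zz] <;> norm_num
  hζ1 := by
    intro k hk
    have hk' : k < 2 := by omega
    interval_cases k <;> simp only [zz] <;> norm_num
  hstep := by
    intro k hk x y hx hy hx1 hy1
    have hk' : k < 2 := by omega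
    interval_cases k
    · exact K0.step x y hx hy hx1 hy1
    · exact K1.step x y hx hy hx1 hy1
  hT := by
    intro a b
    have h := Vale.Agent.P154.quad_nonneg (α := (218377762575893143 / 225000000000000000000 : ℝ)) (β := (-43219080942392837 / 1125000000000000000000000 : ℝ)) (γ := (2401576620306398467743 / 156250000000000000000000000 : ℝ)) (a := a) (b := b) (by norm_num) (by norm_num)
    simp only [show 3 - 1 = 2 from rfl, cc1, cc2, cc4, Pq]
    linarith

/-- Nonreconstruction for `3` children. -/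
theorem nonrecon (lam : ℝ) (h0 : 0 ≤ lam) (hdl : ((3 : ℕ) : ℝ) * lam ^ 2 ≤ 1) :
    Filter.Tendsto (reconError 3 3 lam) Filter.atTop (nhds 0) :=
  nonrecon_of_hyp H lam h0 hdl

end Vale.Agent.P154.D3
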